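import Vale.Agent.P196.Tile.Count.Cells

/-!
P196, module D: arithmetic of the wire rows of one level, and the numbers of the band count.
-/

namespace Vale.Agent.P196.Tile

/-- The indices, in units of `M L ^ 2`, of the rows of a parent that carry data: the wire rows with
bits and the middle row. -/
def wireRows (L : ℕ) : Finset ℕ :=
  (Finset.range (lastK L + 1) ∪ {M L / 2}) ∪
    (Finset.range (lastK L + 1) ∪ {M L / 2}).image (fun k => M L + k)

theorem mem_wireRows {L i : ℕ} :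
    i ∈ wireRows L ↔ (i ≤ lastK L ∨ i = M L / 2) ∨
      ∃ k, (k ≤ lastK L ∨ k = M L / 2) ∧ M L + k = i := by
  simp only [wireRows, Finset.mem_union, Finset.mem_range, Finset.mem_singleton, Finset.mem_image,
    Nat.lt_succ_iff]

theorem wireRows_lt {L i : ℕ} (hL : L₀ ≤ L) (hi : i ∈ wireRows L) : i < 2 * M L := by
  have := lastK_lt hL
  rcases mem_wireRows.1 hi with h | ⟨k, hk, rfl⟩ <;> omega

theorem wireRows_mem {L half k : ℕ} (hh : half < 2) (hk : k ≤ lastK L ∨ k = M L / 2) :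
    M L * half + k ∈ wireRows L := by
  rcases (show half = 0 ∨ half = 1 by omega) with rfl | rfl
  · exact mem_wireRows.2 (Or.inl (by simpa using hk))
  · exact mem_wireRows.2 (Or.inr ⟨k, hk, by rw [Nat.mul_one]⟩)

theorem card_wireRows (L : ℕ) : (wireRows L).card ≤ 2 * (lastK L + 2) := by
  have h : (Finset.range (lastK L + 1) ∪ {M L / 2}).card ≤ lastK L + 2 := by
    refine (Finset.card_union_le _ _).trans ?_
    rw [Finset.card_range, Finset.card_singleton]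
  refine (Finset.card_union_le _ _).trans ?_
  rw [two_mul]
  exact Nat.add_le_add h (Finset.card_image_le.trans h)

/-- A child outside the band and away from the wire rows is quiet. -/
theorem quiet_away {L X Y : ℕ} (τ : ℕ → Bool) (b : ℕ → Quad) (hx : 8 * M L ≤ X % H L)
    (hY : Y < side L)
    (hfar : ∀ i ∈ wireRows L, ∀ c, c ≤ 2 * M L → Y ≠ i * M L ^ 2 + c) :
    child L τ b X Y = quiet L Y := by
  have hhalf : Y / H L < 2 := (Nat.div_lt_iff_lt_mul (pow_pos (M_pos L) 3)).2 hY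
  have hdm := Nat.div_add_mod Y (H L)
  rw [H_eq] at hdm
  have key : ∀ k c, (k ≤ lastK L ∨ k = M L / 2) → c ≤ 2 * M L →
      Y % H L = M L ^ 2 * k + c → False := by
    intro k c hk hc h
    refine hfar _ (wireRows_mem hhalf hk) c hc ?_
    rw [← H_eq] at hdm
    rw [h, H_eq] at hdm
    rw [H_eq]
    linarith
  refine child_quiet τ b hx
    (fun h => key 0 0 (Or.inl (Nat.zero_le _)) (Nat.zero_le _) (by rw [h]; simp))
    (fun h => key 0 (2 * M L) (Or.inl (Nat.zero_le _)) le_rfl ?_)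
    (fun h => key (M L / 2) (2 * M L) (Or.inr rfl) le_rfl ?_)
    (fun h => key _ (M L) (Or.inl h.2) (by omega) (wire_eq h.1))
  · rw [coord_decomp L (Y % H L), h.1, h.2.1, h.2.2]
    ring
  · rw [coord_decomp L (Y % H L), h.1, h.2.1, h.2.2]
    ring

/-- Two wire rows are far apart around the parent. -/
theorem rows_apart {Mc B ρ i j : ℕ} (hi : i < 2 * Mc) (hj : j < 2 * Mc) (hij : i ≠ j)
    (hρ : 5 * ρ < B) {d : ℤ} (hd : |d| ≤ 5 * ρ)
    (hdvd : ((2 * Mc * B : ℕ) : ℤ) ∣ ((i : ℤ) - j) * B + d) : False := by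
  obtain ⟨c, hc⟩ := hdvd
  push_cast at hc
  have hd0 : d = 0 := by
    refine Int.eq_zero_of_abs_lt_dvd (m := (B : ℤ))
      ⟨2 * (Mc : ℤ) * c - ((i : ℤ) - j), by linear_combination hc⟩ ?_
    exact lt_of_le_of_lt hd (by exact_mod_cast hρ)
  have hB : (B : ℤ) ≠ 0 := by omega
  have h1 : (i : ℤ) - j = 2 * (Mc : ℤ) * c :=
    mul_right_cancel₀ hB (by linear_combination hc - hd0)
  have h2 : (i : ℤ) - j = 0 :=
    Int.eq_zero_of_abs_lt_dvd (m := 2 * (Mc : ℤ)) ⟨c, h1⟩ (by rw [abs_lt]; omega)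
  omega

/-- A child near a wire row puts its parent cell near that row. -/
theorem near_row {Q s N i c Mc r d : ℕ} {u o Y : ℤ} (hQ : 0 < Q) (hN : N = Q * s)
    (hu : |u| ≤ r) (hc : c ≤ 2 * Mc) (hMc : 2 ≤ Mc) (hd : d < 3)
    (hY : Y = (o + u) / Q + d - 1) (hYs : Y % s = ((i * Mc ^ 2 + c : ℕ) : ℤ)) :
    ∃ D : ℤ, |D| ≤ ((3 * Mc * Q + r : ℕ) : ℤ) ∧
      (N : ℤ) ∣ ((i * Mc ^ 2 * Q : ℕ) : ℤ) + D - o := by
  refine ⟨(Q : ℤ) * ((c : ℤ) - d + 1) + (o + u) % Q - u, ?_, -(Y / s), ?_⟩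
  · have hQ' : (0 : ℤ) < Q := by exact_mod_cast hQ
    have h1 := Int.emod_nonneg (o + u) hQ'.ne'
    have h2 := Int.emod_lt_of_pos (o + u) hQ'
    have h3 : (Q : ℤ) * ((c : ℤ) - d + 1) ≤ (Q : ℤ) * (2 * Mc + 1) :=
      mul_le_mul_of_nonneg_left (by omega) hQ'.le
    have h4 : (Q : ℤ) * (-1) ≤ (Q : ℤ) * ((c : ℤ) - d + 1) :=
      mul_le_mul_of_nonneg_left (by omega) hQ'.le
    have h5 : (Q : ℤ) * 2 ≤ (Q : ℤ) * Mc := mul_le_mul_of_nonneg_left (by omega) hQ'.le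
    have h6 := abs_le.1 hu
    push_cast
    rw [abs_le]
    constructor <;> linarith [h6.1, h6.2]
  · subst hN
    have e1 := Int.emod_add_mul_ediv Y (s : ℤ)
    have e2 := Int.emod_add_mul_ediv (o + u) (Q : ℤ)
    push_cast at hYs ⊢
    linear_combination (-(Q : ℤ)) * hYs + (Q : ℤ) * e1 + (Q : ℤ) * hY + e2

/-- A wire row met by the children near the row `i` is the row `i` of the same parent. -/
theorem row_hit {Mc i k half : ℕ} {q w Y : ℤ} (hi : i < 2 * Mc) (hk : k + 2 < Mc) (hhalf : half < 2)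
    (hY : Y = 2 * (Mc : ℤ) * (Mc : ℤ) ^ 2 * q +
      ((Mc : ℤ) * (Mc : ℤ) ^ 2 * half + ((Mc : ℤ) ^ 2 * k + Mc)))
    (hY' : Y = (i : ℤ) * (Mc : ℤ) ^ 2 + w) (hw : |w - Mc| < (Mc : ℤ) ^ 2) :
    q = 0 ∧ i = Mc * half + k := by
  have h0 : w - Mc = 0 := Int.eq_zero_of_abs_lt_dvd
    ⟨2 * (Mc : ℤ) * q + (Mc : ℤ) * half + k - i, by linear_combination hY - hY'⟩ hw
  have hM : (Mc : ℤ) ^ 2 ≠ 0 := by
    have : (Mc : ℤ) ≠ 0 := by omega
    positivity
  have h1 : (i : ℤ) - ((Mc : ℤ) * half + k) = 2 * (Mc : ℤ) * q :=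
    mul_right_cancel₀ hM (by linear_combination hY - hY' - h0)
  have hhm : Mc * half ≤ Mc * 1 := Nat.mul_le_mul_left _ (by omega)
  have hhz : (Mc : ℤ) * half ≤ Mc := by exact_mod_cast (by omega : Mc * half ≤ Mc)
  have hh0 : (0 : ℤ) ≤ (Mc : ℤ) * half := by positivity
  have h2 : (i : ℤ) - ((Mc : ℤ) * half + k) = 0 :=
    Int.eq_zero_of_abs_lt_dvd (m := 2 * (Mc : ℤ)) ⟨q, h1⟩ (by rw [abs_lt]; omega)
  refine ⟨?_, ?_⟩
  · rw [h2] at h1
    exact (mul_eq_zero.1 h1.symm).resolve_left (by omega)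
  · have : (i : ℤ) = ((Mc * half + k : ℕ) : ℤ) := by push_cast; linarith
    exact_mod_cast this

/-- The three inequalities of the band count. -/
theorem band_numerics {ε Lr Mc Q E : ℝ} (hL : 1 ≤ Lr) (hM : 65536 ≤ Mc) (hQ : 1 ≤ Q)
    (hE' : E ≤ 4000 * Lr) (hn : 100000 * Lr ≤ ε * Mc) (hε : 0 < ε) :
    Q * E ≤ ε * (Q * Mc ^ 2 / 8) ∧
      Q * (Q * (2 * Mc * Mc ^ 2)) ≤ ε * (Q * (2 * Mc * Mc ^ 2 / 16)) ^ 2 ∧
      E * (Q * Mc ^ 2 / 8) * 16 ≤ ε * (Q * (2 * Mc * Mc ^ 2 / 16)) := by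
  refine ⟨?_, ?_, ?_⟩
  · calc Q * E ≤ Q * (4000 * Lr) := mul_le_mul_of_nonneg_left hE' (by linarith)
      _ ≤ Q * (ε * Mc) := mul_le_mul_of_nonneg_left (by linarith) (by linarith)
      _ ≤ Q * (ε * Mc) * (Mc / 8) := le_mul_of_one_le_right (by positivity) (by linarith)
      _ = ε * (Q * Mc ^ 2 / 8) := by ring
  · have h1 : (128 : ℝ) ≤ ε * Mc * Mc ^ 2 := by
      have h2 : ε * Mc ≤ ε * Mc * Mc ^ 2 :=
        le_mul_of_one_le_right (by positivity) (one_le_pow₀ (by linarith))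
      linarith
    calc Q * (Q * (2 * Mc * Mc ^ 2)) = Q ^ 2 * Mc * Mc ^ 2 * 128 / 64 := by ring
      _ ≤ Q ^ 2 * Mc * Mc ^ 2 * (ε * Mc * Mc ^ 2) / 64 := by gcongr
      _ = ε * (Q * (2 * Mc * Mc ^ 2 / 16)) ^ 2 := by ring
  · calc E * (Q * Mc ^ 2 / 8) * 16 ≤ 4000 * Lr * (Q * Mc ^ 2 / 8) * 16 := by gcongr
      _ = Q * Mc ^ 2 * (8000 * Lr) := by ring
      _ ≤ Q * Mc ^ 2 * (ε * Mc / 8) := mul_le_mul_of_nonneg_left (by linarith) (by positivity)
      _ = ε * (Q * (2 * Mc * Mc ^ 2 / 16)) := by ring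

end Vale.Agent.P196.Tile
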