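import Vale.Agent.P196.Tile.Count.Strip
import Vale.Agent.P196.Tile.Count.Rows

/-!
P196, module D: the band count of a hierarchy.
-/

namespace Vale.Agent.P196.Tile

variable {S : SFT} {O : S.Odometer} (h : Counting S O)

/-- The residue of a wire row among the cells of the parent level. -/
noncomputable def rowPos (O : S.Odometer) (n i : ℕ) : ZMod (O.Q (n + 1)) :=
  ((i * M (L₀ + n) ^ 2 * O.Q n : ℕ) : ZMod (O.Q (n + 1)))

theorem side_pos (L : ℕ) : 0 < side L :=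
  Nat.mul_pos two_pos (pow_pos (M_pos L) 3)

theorem emod_side_lt (L : ℕ) (Y : ℤ) : (Y % (side L : ℤ)).toNat < side L := by
  have h1 := Int.emod_lt_of_pos Y (show (0 : ℤ) < side L by exact_mod_cast side_pos L)
  have h2 := side_pos L
  omega

include h in
/-- The children near the middle of the parent are outside the band. -/
theorem mid_children (n r : ℕ) (hr : r ≤ M (L₀ + n)) {z : S.X} (hz : z ∈ O.fibre₁ (basePoint O))
    (u : V) (hu : |u.1| ≤ (O.Q n * (side (L₀ + n) / 16) + r : ℕ)) (d : Fin 3 × Fin 3) :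
    childX O n z u d / side (L₀ + n) = 0 ∧
      8 * M (L₀ + n) ≤ (childX O n z u d % side (L₀ + n)).toNat % H (L₀ + n) := by
  have hL : L₀ ≤ L₀ + n := Nat.le_add_right _ _
  obtain ⟨h0, h1, h2, h3, -⟩ := middle hL (quarter_lt h n) (i := u.1) (r := r)
    (e := ((d.1 : ℕ) : ℤ) - 1) hu rfl hr (by have := d.1.2; rw [abs_le]; omega)
  have he : ((quarter O.Q n + O.Q n * (H (L₀ + n) / 4) : ℕ) + u.1) / (O.Q n : ℤ) +
      (((d.1 : ℕ) : ℤ) - 1) = childX O n z u d := by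
    rw [childX, org₁_base h hz (n + 1), quarter, add_sub_assoc]
  rw [he] at h0 h1 h2 h3
  exact ⟨h0, by rw [h1, h2]; exact h3⟩

include h in
/-- Away from the wire rows the middle of the parent is periodic. -/
theorem band_periodic (n r : ℕ) (hr : r ≤ M (L₀ + n)) {z z' : S.X}
    (hz : z ∈ O.fibre₁ (basePoint O)) (hz' : z' ∈ O.fibre₁ (basePoint O))
    (hpos : (O.pos (n + 1) z).2 = (O.pos (n + 1) z').2)
    (hfar : ∀ i ∈ wireRows (L₀ + n), ∀ d : ℤ, |d| ≤ (3 * M (L₀ + n) * O.Q n + r : ℕ) →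
      rowPos O n i + (d : ZMod (O.Q (n + 1))) ≠ (O.pos (n + 1) z).2)
    {i i' : ℤ} (hi : |i| ≤ (O.Q n * (side (L₀ + n) / 16) : ℕ))
    (hi' : |i'| ≤ (O.Q n * (side (L₀ + n) / 16) : ℕ)) (hii : (O.Q n : ℤ) ∣ (i - i')) :
    S.AgreeOn (SFT.box r) (S.act (i, 0) z) (S.act (i', 0) z') := by
  intro u hu
  rw [act_apply', act_apply']
  simp only [SFT.box, Finset.mem_Icc, Prod.le_def] at hu
  have ho2 : org₂ O (n + 1) z = org₂ O (n + 1) z' := congrArg ZMod.val hpos
  have hsnd : ∀ j : ℤ, (u + ((j, 0) : V)).2 = u.2 := fun j => add_zero u.2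
  have hb1 : ∀ j : ℤ, |j| ≤ (O.Q n * (side (L₀ + n) / 16) : ℕ) →
      |(u + ((j, 0) : V)).1| ≤ (O.Q n * (side (L₀ + n) / 16) + r : ℕ) := fun j hj => by
    have := abs_le.1 hj
    show |u.1 + j| ≤ _
    rw [abs_le]
    omega
  rw [h.cell_eq n z, h.cell_eq n z', hsnd, hsnd, org₁_base h hz (n + 1), org₁_base h hz' (n + 1),
    ← ho2]
  have hcol : ((quarter O.Q (n + 1) : ℤ) + (u + ((i, 0) : V)).1) % (O.Q n : ℤ) =
      ((quarter O.Q (n + 1) : ℤ) + (u + ((i', 0) : V)).1) % (O.Q n : ℤ) := by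
    show ((quarter O.Q (n + 1) : ℤ) + (u.1 + i)) % (O.Q n : ℤ) =
      ((quarter O.Q (n + 1) : ℤ) + (u.1 + i')) % (O.Q n : ℤ)
    rw [Int.emod_eq_emod_iff_emod_sub_eq_zero]
    refine Int.emod_eq_zero_of_dvd ?_
    rwa [show (quarter O.Q (n + 1) : ℤ) + (u.1 + i) - ((quarter O.Q (n + 1) : ℤ) + (u.1 + i')) =
      i - i' by ring]
  rw [hcol]
  refine congrArg (fun f => h.dec n f _ _) (funext fun d => ?_)
  have hY' : childY O n z' (u + ((i', 0) : V)) d = childY O n z (u + ((i, 0) : V)) d := by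
    rw [childY, childY, hsnd, hsnd, ho2]
  have hquiet : ∀ w ∈ O.fibre₁ (basePoint O), ∀ j : ℤ,
      |j| ≤ (O.Q n * (side (L₀ + n) / 16) : ℕ) →
      h.childAt n w (childX O n w (u + ((j, 0) : V)) d) (childY O n z (u + ((i, 0) : V)) d) =
        quiet (L₀ + n) ((childY O n z (u + ((i, 0) : V)) d) % side (L₀ + n)).toNat := by
    intro w hw j hj
    refine quiet_away _ _ (mid_children h n r hr hw _ (hb1 j hj) d).2 (emod_side_lt _ _)
      fun k hk c hc hYs => ?_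
    have hMc : 2 ≤ M (L₀ + n) := by
      have := M_big (Nat.le_add_right L₀ n)
      omega
    have hYs' : (childY O n z (u + ((i, 0) : V)) d) % (side (L₀ + n) : ℤ) =
        ((k * M (L₀ + n) ^ 2 + c : ℕ) : ℤ) := by
      rw [← hYs, Int.toNat_of_nonneg (Int.emod_nonneg _ (by exact_mod_cast (side_pos _).ne'))]
    obtain ⟨D, hD, hdvd⟩ := near_row (r := r) (u := u.2) (o := (org₂ O (n + 1) z : ℤ))
      (O.Q_pos n) (h.Q_succ n) (by rw [abs_le]; omega) hc hMc d.2.2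
      (by rw [childY, hsnd]) hYs'
    refine hfar k hk D hD ?_
    have : NeZero (O.Q (n + 1)) := ⟨(O.Q_pos _).ne'⟩
    have h1 := (ZMod.intCast_zmod_eq_zero_iff_dvd _ _).2 hdvd
    rw [Int.cast_sub, Int.cast_add, Int.cast_natCast, Int.cast_natCast, org₂,
      ZMod.natCast_zmod_val, sub_eq_zero] at h1
    exact h1
  rw [hY', hquiet z hz i hi, hquiet z' hz' i' hi']

include h in
/-- Near a wire row the middle of the parent shows at most one quadruple of bits. -/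
theorem band_patterns (n r : ℕ) (hr : r ≤ M (L₀ + n)) {i : ℕ} (hi : i ∈ wireRows (L₀ + n))
    {ρ : ℕ} (hρ : 8 * ρ = M (L₀ + n) ^ 2 * O.Q n) :
    S.patternCount {z | z ∈ O.fibre₁ (basePoint O) ∧ (O.pos (n + 1) z).2 = rowPos O n i}
      (SFT.rect (O.Q n * (side (L₀ + n) / 16) + r) (2 * ρ + r)) ≤ Nat.card Quad := by
  have hL : L₀ ≤ L₀ + n := Nat.le_add_right _ _
  have hi2 := wireRows_lt hL hi
  have hQ0 := O.Q_pos n
  have hlt : i * M (L₀ + n) ^ 2 * O.Q n < O.Q (n + 1) := by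
    rw [h.Q_succ n, side_eq, mul_comm (O.Q n),
      show 2 * (M (L₀ + n) * M (L₀ + n) ^ 2) = 2 * M (L₀ + n) * M (L₀ + n) ^ 2 by ring]
    exact Nat.mul_lt_mul_of_pos_right (Nat.mul_lt_mul_of_pos_right hi2 (pow_pos (M_pos _) 2)) hQ0
  refine card_image_le_key _ (fun z => h.bitsAt n z (0, 0) (i % M (L₀ + n))) _
    fun z hz z' hz' hk => funext fun u => ?_
  obtain ⟨u, hu⟩ := u
  simp only [SFT.rect, Finset.mem_Icc, Prod.le_def] at hu
  have ho2 : ∀ w, (O.pos (n + 1) w).2 = rowPos O n i →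
      org₂ O (n + 1) w = i * M (L₀ + n) ^ 2 * O.Q n := fun w hw => by
    rw [org₂, hw, rowPos]
    exact (ZMod.val_natCast _ _).trans (Nat.mod_eq_of_lt hlt)
  rw [h.cell_eq n z u, h.cell_eq n z' u, org₁_base h hz.1 (n + 1), org₁_base h hz'.1 (n + 1),
    ho2 z hz.2, ho2 z' hz'.2]
  refine congrArg (fun f => h.dec n f _ _) (funext fun d => ?_)
  have hX' : childX O n z' u d = childX O n z u d := by
    rw [childX, childX, org₁_base h hz.1 (n + 1), org₁_base h hz'.1 (n + 1)]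
  have hY' : childY O n z' u d = childY O n z u d := by
    rw [childY, childY, ho2 z hz.2, ho2 z' hz'.2]
  rw [hX', hY']
  obtain ⟨hx0, hx⟩ := mid_children h n r hr hz.1 u (by rw [abs_le]; omega) d
  refine child_row table hx fun hwire hhik => ?_
  set L := L₀ + n with hLdef
  set Y := childY O n z u d with hY
  have hMb := M_big hL
  have hlK := lastK_lt hL
  have hs0 : (side L : ℤ) ≠ 0 := by exact_mod_cast (side_pos L).ne'
  have hhalf : (Y % (side L : ℤ)).toNat / H L < 2 :=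
    (Nat.div_lt_iff_lt_mul (pow_pos (M_pos L) 3)).2 (emod_side_lt L Y)
  set y := (Y % (side L : ℤ)).toNat % H L with hy
  set half := (Y % (side L : ℤ)).toNat / H L with hhalfdef
  have hdm := Nat.div_add_mod (Y % (side L : ℤ)).toNat (H L)
  rw [← hy, ← hhalfdef, wire_eq hwire, H_eq] at hdm
  have hdmZ : ((M L : ℤ) * (M L : ℤ) ^ 2) * half + ((M L : ℤ) ^ 2 * Tile.hi L y + M L) =
      Y % (side L : ℤ) := by
    rw [← Int.toNat_of_nonneg (Int.emod_nonneg Y hs0), ← hdm]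
    push_cast
    ring
  have hsz : (side L : ℤ) = 2 * (M L : ℤ) * (M L : ℤ) ^ 2 := by
    rw [side_eq]; push_cast; ring
  have hQz : (0 : ℤ) < O.Q n := by exact_mod_cast hQ0
  have hYe : Y = (i : ℤ) * (M L : ℤ) ^ 2 + (u.2 / (O.Q n : ℤ) + ((d.2 : ℕ) : ℤ) - 1) := by
    rw [hY, childY, ho2 z hz.2,
      show ((i * M L ^ 2 * O.Q n : ℕ) : ℤ) + u.2 =
        u.2 + (O.Q n : ℤ) * ((i : ℤ) * (M L : ℤ) ^ 2) by push_cast; ring,
      Int.add_mul_ediv_left _ _ hQz.ne']
    ring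
  have hw : |u.2 / (O.Q n : ℤ) + ((d.2 : ℕ) : ℤ) - 1 - M L| < (M L : ℤ) ^ 2 := by
    obtain ⟨P, hP⟩ : 8 ∣ M L ^ 2 := by
      refine (show 8 ∣ 2 ^ 3 from dvd_rfl).trans ?_
      rw [M, ← pow_mul]
      exact pow_dvd_pow 2 (by have := le_L₀; omega)
    have hρP : ρ = P * O.Q n := by
      rw [hP, mul_assoc] at hρ
      omega
    have hb : ((2 * ρ + r : ℕ) : ℤ) ≤ (O.Q n : ℤ) * (2 * P + r) := by
      have h1 : (r : ℤ) ≤ (O.Q n : ℤ) * r :=
        le_mul_of_one_le_left (Int.natCast_nonneg r) (by omega)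
      rw [hρP]
      push_cast
      linarith
    have h1 : u.2 / (O.Q n : ℤ) < 2 * P + r + 1 := by
      rw [Int.ediv_lt_iff_lt_mul hQz]
      linarith [hu.2.2]
    have h2 : -(2 * (P : ℤ) + r) ≤ u.2 / (O.Q n : ℤ) := by
      rw [Int.le_ediv_iff_mul_le hQz]
      linarith [hu.1.2]
    have hPz : (M L : ℤ) ^ 2 = 8 * P := by exact_mod_cast hP
    have hM2 : (M L : ℤ) * 16 ≤ (M L : ℤ) ^ 2 := by
      rw [sq]; exact mul_le_mul_of_nonneg_left (by omega) (Int.natCast_nonneg _)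
    have := d.2.2
    rw [abs_lt]
    omega
  have hmod := Int.emod_add_mul_ediv Y (side L : ℤ)
  obtain ⟨hq, hik⟩ := row_hit hi2 (show Tile.hi L y + 2 < M L by omega) hhalf
    (q := Y / (side L : ℤ)) (Y := Y)
    (by linear_combination (-1 : ℤ) * hdmZ - hmod + (Y / (side L : ℤ)) * hsz) hYe hw
  have hik' : i % M L = Tile.hi L y := by rw [hik, Nat.mul_add_mod, Nat.mod_eq_of_lt (by omega)]
  rw [hx0, hq, ← hik']
  exact hk

include h in
/-- The bands are periodic away from the wire rows, with few patterns near them. -/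
theorem bandCount : S.BandCount O (basePoint O) := by
  classical
  intro r ε hε
  obtain ⟨n, hn, hnr⟩ := exists_large 100000 r hε
  have hL : L₀ ≤ L₀ + n := Nat.le_add_right _ _
  obtain ⟨hM, hM2, ⟨P, hP⟩, h16, hside⟩ := M_facts hL
  have hQ0 := O.Q_pos n
  have hQs := h.Q_succ n
  have hr : r ≤ M (L₀ + n) := by omega
  have hρ : 8 * (O.Q n * P) = M (L₀ + n) ^ 2 * O.Q n := by rw [hP]; ring
  have hN : O.Q (n + 1) = 2 * M (L₀ + n) * (M (L₀ + n) ^ 2 * O.Q n) := by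
    rw [hQs, hside]; ring
  have hs16 : side (L₀ + n) = 16 * (side (L₀ + n) / 16) := (Nat.mul_div_cancel' h16).symm
  refine ⟨n, n + 1, O.Q n * (side (L₀ + n) / 16), O.Q n * P, 3 * M (L₀ + n) * O.Q n + r,
    16, (wireRows (L₀ + n)).image (rowPos O n), ?_, ?_, ?_, ?_, ?_, ?_, ?_⟩
  · have h1 : r < side (L₀ + n) / 16 := by
      rw [Nat.lt_div_iff_mul_lt' h16, hside]
      nlinarith
    exact lt_of_lt_of_le h1 (Nat.le_mul_of_pos_left _ hQ0)
  · have h1 : O.Q n * (6 * M (L₀ + n) + 4 * r + 2) ≤ O.Q n * P :=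
      Nat.mul_le_mul_left _ (by omega)
    have h2 : 4 * r + 2 ≤ O.Q n * (4 * r + 2) := Nat.le_mul_of_pos_left _ hQ0
    rw [add_assoc, mul_add] at h1
    linarith
  · have h1 : 2 * (M (L₀ + n) ^ 2 * O.Q n) ≤ O.Q (n + 1) := by
      rw [hN]
      exact Nat.mul_le_mul_right _ (by omega)
    have h2 : 0 < O.Q n * P := Nat.mul_pos hQ0 (by omega)
    omega
  · intro e he e' he' hne d hd hde
    obtain ⟨i, hi, rfl⟩ := Finset.mem_image.1 he
    obtain ⟨j, hj, rfl⟩ := Finset.mem_image.1 he'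
    have hb : 5 * (O.Q n * P) < M (L₀ + n) ^ 2 * O.Q n := by
      have : 0 < O.Q n * P := Nat.mul_pos hQ0 (by omega)
      omega
    refine rows_apart (wireRows_lt hL hi) (wireRows_lt hL hj)
      (fun hij => hne (by rw [hij])) hb hd ?_
    rw [← hN, ← ZMod.intCast_zmod_eq_zero_iff_dvd]
    simp only [rowPos] at hde
    push_cast at hde ⊢
    linear_combination hde
  · exact fun z hz z' hz' hpos hfar i i' hi hi' hii => band_periodic h n r hr hz hz' hpos
      (fun k hk => hfar _ (Finset.mem_image_of_mem _ hk)) hi hi' hii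
  · intro e he
    obtain ⟨i, hi, rfl⟩ := Finset.mem_image.1 he
    refine (band_patterns h n r hr hi hρ).trans (le_of_eq ?_)
    rw [Nat.card_eq_fintype_card]
    rfl
  · have hLr : (1 : ℝ) ≤ ((L₀ + n : ℕ) : ℝ) := by
      exact_mod_cast (le_trans (by have := le_L₀; omega) hL : 1 ≤ L₀ + n)
    have hE : (((wireRows (L₀ + n)).image (rowPos O n)).card : ℝ) ≤
        4000 * ((L₀ + n : ℕ) : ℝ) := by
      have h1 : ((wireRows (L₀ + n)).image (rowPos O n)).card ≤ 4000 * (L₀ + n) := by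
        refine Finset.card_image_le.trans ((card_wireRows _).trans ?_)
        have : 50000 ≤ L₀ + n := le_L₀.trans hL
        simp only [lastK, A]
        omega
      exact_mod_cast h1
    have hρr : ((O.Q n * P : ℕ) : ℝ) = (O.Q n : ℝ) * (M (L₀ + n) : ℝ) ^ 2 / 8 := by
      have : ((8 * (O.Q n * P) : ℕ) : ℝ) = ((M (L₀ + n) ^ 2 * O.Q n : ℕ) : ℝ) := by rw [hρ]
      push_cast at this ⊢
      linarith
    have hRr : ((O.Q n * (side (L₀ + n) / 16) : ℕ) : ℝ) =
        (O.Q n : ℝ) * (2 * (M (L₀ + n) : ℝ) * (M (L₀ + n) : ℝ) ^ 2 / 16) := by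
      rw [Nat.cast_mul, Nat.cast_div h16 (by norm_num), hside]
      push_cast
      ring
    have hNr : ((O.Q (n + 1) : ℕ) : ℝ) =
        (O.Q n : ℝ) * (2 * (M (L₀ + n) : ℝ) * (M (L₀ + n) : ℝ) ^ 2) := by
      rw [hN]
      push_cast
      ring
    rw [hρr, hRr, hNr]
    exact band_numerics hLr (by exact_mod_cast hM) (by exact_mod_cast hQ0) hE hn hε

end Vale.Agent.P196.Tile
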