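import Vale.Agent.P196.Tile.Spec

/-!
P196, module D: which bits of the parents the children outside the band, and the children far from
the wire rows, depend on.
-/

namespace Vale.Agent.P196.Tile

theorem M_pos (L : ℕ) : 0 < M L := Nat.two_pow_pos L

theorem M_big {L : ℕ} (hL : L₀ ≤ L) : 64 * (A + 8 * L + 8) ≤ M L := by
  have h : 50000 ≤ L := le_L₀.trans hL
  have h2 : L - 10 < 2 ^ (L - 10) := Nat.lt_two_pow_self
  have h3 : M L = 1024 * 2 ^ (L - 10) := by
    rw [M, show (1024 : ℕ) = 2 ^ 10 by norm_num, ← pow_add, Nat.add_sub_cancel' (by omega)]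
  rw [h3, show A = 1024 from rfl]
  omega

theorem H_eq (L : ℕ) : H L = M L * M L ^ 2 := by rw [H, ← pow_succ']

theorem lastK_lt {L : ℕ} (hL : L₀ ≤ L) : lastK L + 2 < M L / 16 := by
  have := M_big hL
  rw [lastK]
  omega

theorem coord_decomp (L y : ℕ) : y = M L ^ 2 * hi L y + M L * mid L y + lo L y := by
  have h1 := Nat.div_add_mod y (M L)
  have h2 := Nat.div_add_mod (y / M L) (M L)
  have h3 : y / M L / M L = y / M L ^ 2 := by rw [Nat.div_div_eq_div_mul, sq]
  rw [h3] at h2
  rw [hi, mid, lo, sq, mul_assoc, ← mul_add]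
  rw [sq] at h2
  rw [h2, h1]

theorem wire_eq {L y : ℕ} (h : IsWire L y) : y = M L ^ 2 * hi L y + M L := by
  have := coord_decomp L y
  rwa [h.1, h.2, mul_one, add_zero] at this

theorem not_col {L x : ℕ} (hx : 8 * M L ≤ x) {m : ℕ} (hm : m ≤ 7) : ¬ IsCol L x m := by
  rintro ⟨h1, h2⟩
  have := coord_decomp L x
  rw [h1, h2, mul_zero, zero_add] at this
  have h3 : lo L x < M L := Nat.mod_lt _ (M_pos L)
  have : M L * m ≤ M L * 7 := Nat.mul_le_mul_left _ hm
  omega

theorem knownX_false {L x y : ℕ} (hy : y ≠ 0) (hx : 8 * M L ≤ x) (hl : ¬ IsLive L y) :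
    knownX L x y = false := by
  simp only [knownX, Bool.or_eq_false_iff, Bool.and_eq_false_iff, decide_eq_false_iff_not]
  refine ⟨⟨hy, ?_⟩, hl⟩
  by_contra hc
  simp only [not_or, not_not] at hc
  exact not_col hx hc.2 ⟨hc.1, rfl⟩

/-- The child outside the band on a row without special data. -/
def quiet (L Y : ℕ) : St :=
  ⟨false, 0, Y % H L, 0, ⟨none, none, fun _ => false, fun _ => false, none, none, false, none, false⟩⟩

theorem child_quiet {L X Y : ℕ} (τ : ℕ → Bool) (b : ℕ → Quad) (hx : 8 * M L ≤ X % H L)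
    (h0 : Y % H L ≠ 0) (h2 : ¬ (lo L (Y % H L) = 0 ∧ mid L (Y % H L) = 2 ∧ hi L (Y % H L) = 0))
    (hR : ¬ IsHalfRow L (Y % H L)) (hw : ¬ (IsWire L (Y % H L) ∧ hi L (Y % H L) ≤ lastK L)) :
    child L τ b X Y = quiet L Y := by
  have hxne : X % H L ≠ 0 := by have := M_pos L; omega
  have e1 := knownX_false h0 hx hw
  have c1 := not_col hx (m := 1) (by norm_num)
  have c2 := not_col hx (m := 2) (by norm_num)
  have c3 := not_col hx (m := 3) (by norm_num)
  have c4 := not_col hx (m := 4) (by norm_num)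
  have c6 := not_col hx (m := 6) (by norm_num)
  have c7 := not_col hx (m := 7) (by norm_num)
  have cb : ¬ IsBundle L (X % H L) := fun h => c1 h.1
  have z4 : ¬ IsZone L (X % H L) 4 := fun h => c4 h.1
  have z6 : ¬ IsZone L (X % H L) 6 := fun h => c6 h.1
  unfold child quiet
  simp [e1, c2, c3, c7, cb, z4, z6, hxne, h0, h2, hR, show ¬ IsLive L (Y % H L) from hw]
  funext j
  rcases not_and_or.1 hw with h | h <;> simp [h]

theorem child_row {L X Y : ℕ} (τ : ℕ → Bool) {b b' : ℕ → Quad} (hx : 8 * M L ≤ X % H L)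
    (hb : IsWire L (Y % H L) → hi L (Y % H L) ≤ lastK L →
      b (hi L (Y % H L)) = b' (hi L (Y % H L))) :
    child L τ b X Y = child L τ b' X Y := by
  have c3 := not_col hx (m := 3) (by norm_num)
  have cb : ¬ IsBundle L (X % H L) := fun h => not_col hx (m := 1) (by norm_num) h.1
  have z4 : ¬ IsZone L (X % H L) 4 := fun h => not_col hx (m := 4) (by norm_num) h.1
  have z6 : ¬ IsZone L (X % H L) 6 := fun h => not_col hx (m := 6) (by norm_num) h.1
  unfold child
  simp only [cb, c3, z4, z6, false_and, false_or, if_false, St.mk.injEq, Fin'.mk.injEq, and_self,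
    and_true, true_and]
  funext j
  split_ifs with h
  · rw [hb h.1 h.2.1]
  · rfl

theorem high_facts {L y : ℕ} (hL : L₀ ≤ L) (hy : M L / 16 ≤ hi L y) :
    lastK L < hi L y ∧ lastK L < rowIdx L y ∧ rowIdx L y ≤ rowsBelow L y ∧
      y ≠ 0 ∧ M L ≤ y := by
  have h1 := lastK_lt hL
  have hM := M_pos L
  have hd := Nat.div_mul_le_self y (M L ^ 2)
  rw [hi] at hy ⊢
  have hMy : M L ≤ y := by
    refine le_trans ?_ hd
    calc M L = 1 * M L ^ 1 := by ring
      _ ≤ (y / M L ^ 2) * M L ^ 2 :=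
        Nat.mul_le_mul (by omega) (Nat.pow_le_pow_right hM (by norm_num))
  refine ⟨by omega, ?_, ?_, by omega, hMy⟩
  · rw [rowIdx, Nat.lt_iff_add_one_le, Nat.le_div_iff_mul_le (pow_pos hM 2)]
    have h2 : (lastK L + 2) * M L ^ 2 ≤ (y / M L ^ 2) * M L ^ 2 :=
      Nat.mul_le_mul_right _ (by omega)
    have h3 : M L ≤ M L ^ 2 := Nat.le_self_pow two_ne_zero _
    rw [add_mul, two_mul] at h2
    rw [add_mul, one_mul]
    omega
  · rw [rowsBelow, if_neg (by omega)]
    split_ifs <;> omega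

theorem child_high {L X Y : ℕ} (hL : L₀ ≤ L) (τ : ℕ → Bool) {b b' : ℕ → Quad}
    (hy : M L / 16 ≤ hi L (Y % H L))
    (hb : b (lo L (X % H L) / 2) = b' (lo L (X % H L) / 2)) :
    child L τ b X Y = child L τ b' X Y := by
  obtain ⟨hh, hr, hrb, h0, hM⟩ := high_facts hL hy
  have hxl : xlRow (B - 1) ≤ lastK L := by
    have : 50000 ≤ L := le_L₀.trans hL
    simp only [xlRow, lastK, B, A]
    omega
  have hA : A ≤ lastK L := by simp only [lastK]; omega
  have n1 : ¬ hi L (Y % H L) ≤ lastK L := by omega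
  have n2 : ¬ rowIdx L (Y % H L) ≤ lastK L := by omega
  have n3 : ¬ rowsBelow L (Y % H L) ≤ A - 1 := by omega
  have n4 : ¬ rowsBelow L (Y % H L) ≤ xlRow (B - 1) := by omega
  unfold child
  simp only [n1, n2, n3, n4, false_and, and_false, if_false, St.mk.injEq, Fin'.mk.injEq, and_self,
    and_true, true_and]
  funext j
  split_ifs with h
  · rw [hb]
  · rfl

end Vale.Agent.P196.Tile
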