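import Vale.Agent.P196.Tile.Count.Record
import Vale.Agent.P196.Tile.Count.Children

/-!
P196, module D: a cell as a function of the children around it, addressed from the parent level.
-/

namespace Vale.Agent.P196.Tile

variable {S : SFT} {O : S.Odometer}

theorem org₁_lt (O : S.Odometer) (n : ℕ) (x : S.X) : org₁ O n x < O.Q n := by
  have : NeZero (O.Q n) := ⟨(O.Q_pos n).ne'⟩
  exact ZMod.val_lt _

theorem org₂_lt (O : S.Odometer) (n : ℕ) (x : S.X) : org₂ O n x < O.Q n := by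
  have : NeZero (O.Q n) := ⟨(O.Q_pos n).ne'⟩
  exact ZMod.val_lt _

theorem org₁_succ (n : ℕ) (x : S.X) : org₁ O (n + 1) x % O.Q n = org₁ O n x := by
  have : NeZero (O.Q n) := ⟨(O.Q_pos n).ne'⟩
  have : NeZero (O.Q (n + 1)) := ⟨(O.Q_pos _).ne'⟩
  have h : ZMod.castHom (O.Q_dvd n) (ZMod (O.Q n)) (O.pos (n + 1) x).1 = (O.pos n x).1 :=
    congrArg Prod.fst (O.pos_compat n x)
  rw [org₁, org₁, ← h, ZMod.castHom_apply, ZMod.cast_eq_val, ZMod.val_natCast]

theorem org₂_succ (n : ℕ) (x : S.X) : org₂ O (n + 1) x % O.Q n = org₂ O n x := by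
  have : NeZero (O.Q n) := ⟨(O.Q_pos n).ne'⟩
  have : NeZero (O.Q (n + 1)) := ⟨(O.Q_pos _).ne'⟩
  have h : ZMod.castHom (O.Q_dvd n) (ZMod (O.Q n)) (O.pos (n + 1) x).2 = (O.pos n x).2 :=
    congrArg Prod.snd (O.pos_compat n x)
  rw [org₂, org₂, ← h, ZMod.castHom_apply, ZMod.cast_eq_val, ZMod.val_natCast]

/-- The first coordinate of the child in its parent row, from the parent level. -/
def childX (O : S.Odometer) (n : ℕ) (x : S.X) (u : V) (d : Fin 3 × Fin 3) : ℤ :=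
  ((org₁ O (n + 1) x : ℤ) + u.1) / O.Q n + ((d.1 : ℕ) : ℤ) - 1

/-- The second coordinate of the child in its parent column, from the parent level. -/
def childY (O : S.Odometer) (n : ℕ) (x : S.X) (u : V) (d : Fin 3 × Fin 3) : ℤ :=
  ((org₂ O (n + 1) x : ℤ) + u.2) / O.Q n + ((d.2 : ℕ) : ℤ) - 1

namespace Counting

variable (h : Counting S O)

/-- The bits seen by the children of the parent at `P`. -/
noncomputable def bitsAt (n : ℕ) (x : S.X) (P : V) : ℕ → Quad :=
  quadBits (L₀ + n + 1) fun j =>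
    h.tile (n + 1) x (P.1 - (quadDelta j).1, P.2 - (quadDelta j).2)

/-- The child at a position addressed from the parent level. -/
noncomputable def childAt (n : ℕ) (x : S.X) (X Y : ℤ) : St :=
  child (L₀ + n) table (h.bitsAt n x (X / side (L₀ + n), Y / side (L₀ + n)))
    (X % side (L₀ + n)).toNat (Y % side (L₀ + n)).toNat

theorem cell_eq (n : ℕ) (x : S.X) (u : V) : x.1 u =
    h.dec n (fun d => h.childAt n x (childX O n x u d) (childY O n x u d))
      (((org₁ O (n + 1) x : ℤ) + u.1) % O.Q n).toNat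
      (((org₂ O (n + 1) x : ℤ) + u.2) % O.Q n).toNat := by
  have hQ : (O.Q n : ℤ) ≠ 0 := by exact_mod_cast (O.Q_pos n).ne'
  have e1 : ((org₁ O (n + 1) x : ℤ) + u.1) =
      ((org₁ O n x : ℤ) + u.1) + (O.Q n : ℤ) * ((org₁ O (n + 1) x / O.Q n : ℕ) : ℤ) := by
    rw [← org₁_succ n x]
    have := Int.emod_add_mul_ediv (org₁ O (n + 1) x : ℤ) (O.Q n)
    push_cast
    linarith
  have e2 : ((org₂ O (n + 1) x : ℤ) + u.2) =
      ((org₂ O n x : ℤ) + u.2) + (O.Q n : ℤ) * ((org₂ O (n + 1) x / O.Q n : ℕ) : ℤ) := by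
    rw [← org₂_succ n x]
    have := Int.emod_add_mul_ediv (org₂ O (n + 1) x : ℤ) (O.Q n)
    push_cast
    linarith
  rw [h.cell n x u, e1, e2, Int.add_mul_emod_self_left, Int.add_mul_emod_self_left]
  congr 1
  funext d
  rw [h.tile_eq, childAt, bitsAt]
  have f1 : (inParent O n x ((tileOf O n x u).1 + ((d.1 : ℕ) : ℤ) - 1,
      (tileOf O n x u).2 + ((d.2 : ℕ) : ℤ) - 1)).1 = childX O n x u d := by
    rw [childX, e1, Int.add_mul_ediv_left _ _ hQ, inParent, tileOf]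
    ring
  have f2 : (inParent O n x ((tileOf O n x u).1 + ((d.1 : ℕ) : ℤ) - 1,
      (tileOf O n x u).2 + ((d.2 : ℕ) : ℤ) - 1)).2 = childY O n x u d := by
    rw [childY, e2, Int.add_mul_ediv_left _ _ hQ, inParent, tileOf]
    ring
  rw [f1, f2]

end Counting

/-- A key determining a map bounds the cardinality of its image. -/
theorem card_image_le_key {α β κ : Type*} [Finite κ] (f : α → β) (g : α → κ) (s : Set α)
    (hfg : ∀ a ∈ s, ∀ b ∈ s, g a = g b → f a = f b) : Nat.card (f '' s) ≤ Nat.card κ := by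
  refine Nat.card_le_card_of_injective (fun y : f '' s => g y.2.choose) fun y y' h => Subtype.ext ?_
  have h1 := y.2.choose_spec
  have h2 := y'.2.choose_spec
  rw [← h1.2, ← h2.2]
  exact hfg _ h1.1 _ h2.1 h

theorem side_eq (L : ℕ) : side L = 2 * (M L * M L ^ 2) := by rw [side, H_eq]

theorem quarter_lt (h : Counting S O) : ∀ n, quarter O.Q n < O.Q n
  | 0 => O.Q_pos 0
  | n + 1 => by
    have := quarter_lt h n
    rw [quarter, h.Q_succ, side]
    have h1 : O.Q n * (H (L₀ + n) / 4) + O.Q n ≤ O.Q n * (2 * H (L₀ + n)) := by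
      rw [← Nat.mul_succ]
      refine Nat.mul_le_mul_left _ ?_
      have : 0 < H (L₀ + n) := pow_pos (M_pos _) 3
      omega
    omega

theorem org₁_base (h : Counting S O) {x : S.X} (hx : x ∈ O.fibre₁ (basePoint O)) (n : ℕ) :
    org₁ O n x = quarter O.Q n := by
  have : NeZero (O.Q n) := ⟨(O.Q_pos n).ne'⟩
  rw [org₁, hx n, basePoint, ZMod.val_natCast, Nat.mod_eq_of_lt (quarter_lt h n)]

theorem org₂_base (h : Counting S O) {x : S.X} (hx : x ∈ O.fibre₂ (basePoint O)) (n : ℕ) :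
    org₂ O n x = quarter O.Q n := by
  have : NeZero (O.Q n) := ⟨(O.Q_pos n).ne'⟩
  rw [org₂, hx n, basePoint, ZMod.val_natCast, Nat.mod_eq_of_lt (quarter_lt h n)]

/-- Near the quarter point a coordinate is far from the band and from the rows with data. -/
theorem middle {L : ℕ} (hL : L₀ ≤ L) {q Q : ℕ} (hq : q < Q) {i : ℤ} {R r : ℕ} {e : ℤ}
    (hi : |i| ≤ (R + r : ℕ)) (hR : R = Q * (side L / 16)) (hr : r ≤ M L) (he : |e| ≤ 2) :
    let X : ℤ := ((q + Q * (H L / 4) : ℕ) + i) / (Q : ℤ) + e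
    X / side L = 0 ∧ X % side L = X ∧ X.toNat % H L = X.toNat ∧ 8 * M L ≤ X.toNat ∧
      M L / 16 ≤ Tile.hi L X.toNat ∧ Tile.hi L X.toNat < M L / 2 := by
  intro X
  have hM : 65536 ≤ M L := by have := M_big hL; rw [show A = 1024 from rfl] at this; omega
  have hQ : (0 : ℤ) < Q := by exact_mod_cast lt_of_le_of_lt (Nat.zero_le q) hq
  have hH := H_eq L
  have hS := side_eq L
  have hcube : 65536 * M L ≤ M L * M L ^ 2 := by
    rw [mul_comm]
    exact Nat.mul_le_mul_left _ (hM.trans (Nat.le_self_pow two_ne_zero _))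
  have hpush : ((q + Q * (H L / 4) : ℕ) : ℤ) + i = (q : ℤ) + i + (Q : ℤ) * ((H L / 4 : ℕ) : ℤ) := by
    rw [Nat.cast_add, Nat.cast_mul]; ring
  have hX : X = ((q : ℤ) + i) / Q + ((H L / 4 : ℕ) : ℤ) + e := by
    show _ / (Q : ℤ) + e = _
    rw [hpush, Int.add_mul_ediv_left _ _ hQ.ne']
  have hi' := abs_le.1 hi
  have hi2 : (R + r : ℕ) ≤ Q * (side L / 16 + r) := by
    rw [hR, mul_add]
    exact Nat.add_le_add_left (Nat.le_mul_of_pos_left _ (by exact_mod_cast hQ)) _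
  have hi3 : (((R + r : ℕ)) : ℤ) ≤ (Q : ℤ) * ((side L / 16 + r : ℕ) : ℤ) := by exact_mod_cast hi2
  have hlow : -((side L / 16 + r : ℕ) : ℤ) ≤ ((q : ℤ) + i) / Q := by
    rw [Int.le_ediv_iff_mul_le hQ, neg_mul, mul_comm]
    linarith [hi'.1, (Int.natCast_nonneg q)]
  have hhigh : ((q : ℤ) + i) / Q < ((side L / 16 + r : ℕ) : ℤ) + 1 := by
    rw [Int.ediv_lt_iff_lt_mul hQ, add_mul, one_mul, mul_comm]
    have : (q : ℤ) < Q := by exact_mod_cast hq
    linarith [hi'.2]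
  have he' := abs_le.1 he
  obtain ⟨N, hN⟩ : ∃ N : ℕ, X = (N : ℤ) := ⟨X.toNat, by rw [Int.toNat_of_nonneg]; omega⟩
  have h8 : 16 ∣ M L := pow_dvd_pow 2 (show 4 ≤ L by have := le_L₀; omega)
  obtain ⟨m, hm⟩ := h8
  have hP : M L * M L ^ 2 = 16 * (m * M L ^ 2) := by
    rw [← mul_assoc 16 m, ← hm]
  have hmM : 4096 * M L ≤ m * M L ^ 2 := by
    rw [hP] at hcube
    omega
  have hN1 : N < H L := by omega
  have hN2 : m * M L ^ 2 ≤ N := by omega
  have hN3 : N < 8 * (m * M L ^ 2) := by omega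
  rw [hN, Int.toNat_natCast]
  refine ⟨?_, ?_, Nat.mod_eq_of_lt hN1, by omega, ?_, ?_⟩
  · exact Int.ediv_eq_zero_of_lt (by omega) (by omega)
  · exact Int.emod_eq_of_lt (by omega) (by omega)
  · rw [Tile.hi, Nat.le_div_iff_mul_le (pow_pos (M_pos L) 2),
      show M L / 16 = m by omega]
    exact hN2
  · rw [Tile.hi, Nat.div_lt_iff_lt_mul (pow_pos (M_pos L) 2),
      show M L / 2 = 8 * m by omega, mul_assoc]
    exact hN3

end Vale.Agent.P196.Tile
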