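import Vale.Agent.P196.Defs
import Vale.Agent.P196.Tile.Spec

/-!
P196, module D: what the counting uses of a hierarchy of tilings of a subshift.
-/

namespace Vale.Agent.P196.Tile

variable {S : SFT}

/-- The first coordinate of the origin inside its tile of level `n`. -/
def org₁ (O : S.Odometer) (n : ℕ) (x : S.X) : ℕ := (O.pos n x).1.val

/-- The second coordinate of the origin inside its tile of level `n`. -/
def org₂ (O : S.Odometer) (n : ℕ) (x : S.X) : ℕ := (O.pos n x).2.val

/-- The tile of level `n` containing the cell `u`, relative to the tile of the origin. -/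
def tileOf (O : S.Odometer) (n : ℕ) (x : S.X) (u : V) : V :=
  (((org₁ O n x : ℤ) + u.1) / O.Q n, ((org₂ O n x : ℤ) + u.2) / O.Q n)

/-- The position inside its parent of the tile `t` of level `n`, before reduction. -/
def inParent (O : S.Odometer) (n : ℕ) (x : S.X) (t : V) : V :=
  ((org₁ O (n + 1) x / O.Q n : ℕ) + t.1, (org₂ O (n + 1) x / O.Q n : ℕ) + t.2)

/-- The displacement to a member of a quadruple. -/
def quadDelta (j : Fin 4) : V :=
  (if j = 1 ∨ j = 3 then 1 else 0, if j = 2 ∨ j = 3 then 1 else 0)

/-- Tilings at all levels which determine the configuration and one another. -/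
structure Counting (S : SFT) (O : S.Odometer) where
  tile : ℕ → S.X → V → St
  dec : ℕ → (Fin 3 × Fin 3 → St) → ℕ → ℕ → S.A
  Q_succ : ∀ n, O.Q (n + 1) = O.Q n * side (L₀ + n)
  cell : ∀ n x u, x.1 u = dec n
    (fun d => tile n x ((tileOf O n x u).1 + ((d.1 : ℕ) : ℤ) - 1,
      (tileOf O n x u).2 + ((d.2 : ℕ) : ℤ) - 1))
    (((org₁ O n x : ℤ) + u.1) % O.Q n).toNat (((org₂ O n x : ℤ) + u.2) % O.Q n).toNat
  tile_eq : ∀ n x t, tile n x t =
    child (L₀ + n) table
      (quadBits (L₀ + n + 1) fun j => tile (n + 1) x
        ((inParent O n x t).1 / side (L₀ + n) - (quadDelta j).1,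
          (inParent O n x t).2 / side (L₀ + n) - (quadDelta j).2))
      ((inParent O n x t).1 % side (L₀ + n)).toNat ((inParent O n x t).2 % side (L₀ + n)).toNat

/-- The point whose digit is the quarter point at every level. -/
noncomputable def quarter (Q : ℕ → ℕ) : ℕ → ℕ
  | 0 => 0
  | n + 1 => quarter Q n + Q n * (H (L₀ + n) / 4)

/-- The base point of the counted fibres. -/
noncomputable def basePoint (O : S.Odometer) (n : ℕ) : ZMod (O.Q n) := (quarter O.Q n : ZMod (O.Q n))

end Vale.Agent.P196.Tile
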