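import Vale.Agent.P196.Tile.Count.Cells

/-!
P196, module D: the strip count of a hierarchy.
-/

namespace Vale.Agent.P196.Tile

variable {S : SFT} {O : S.Odometer}

/-- A level at which every polynomial in the bit count is small against `2 ^ L`. -/
theorem exists_large (c : ℝ) (r : ℕ) {ε : ℝ} (hε : 0 < ε) :
    ∃ n : ℕ, c * (L₀ + n : ℕ) ≤ ε * (M (L₀ + n) : ℝ) ∧ 16 * r ≤ M (L₀ + n) := by
  refine ⟨⌈c / ε⌉₊ + 16 * r + 4, ?_, ?_⟩ <;>
    set L := L₀ + (⌈c / ε⌉₊ + 16 * r + 4) with hL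
  · have h1 : L ^ 2 ≤ M L := by
      have : ∀ j, 4 ≤ j → j ^ 2 ≤ 2 ^ j := by
        intro j hj
        induction j, hj using Nat.le_induction with
        | base => norm_num
        | succ j hj ih => rw [pow_succ 2 j]; nlinarith
      exact this L (by omega)
    have h2 : c / ε ≤ (L : ℝ) := (Nat.le_ceil _).trans (by exact_mod_cast (by omega : ⌈c / ε⌉₊ ≤ L))
    rw [div_le_iff₀ hε] at h2
    have h3 : (L : ℝ) ^ 2 ≤ (M L : ℝ) := by exact_mod_cast h1
    calc c * (L : ℝ) ≤ (L : ℝ) * ε * L := mul_le_mul_of_nonneg_right h2 (Nat.cast_nonneg _)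
      _ = ε * (L : ℝ) ^ 2 := by ring
      _ ≤ _ := mul_le_mul_of_nonneg_left h3 hε.le
  · exact le_trans (by omega : 16 * r ≤ L) (Nat.lt_two_pow_self).le

theorem M_facts {L : ℕ} (hL : L₀ ≤ L) :
    65536 ≤ M L ∧ 65536 * M L ≤ M L ^ 2 ∧ 8 ∣ M L ^ 2 ∧ 16 ∣ side L ∧
      side L = 2 * (M L * M L ^ 2) := by
  have hM : 65536 ≤ M L := by have := M_big hL; rw [show A = 1024 from rfl] at this; omega
  refine ⟨hM, by rw [sq]; exact Nat.mul_le_mul_right _ hM, ?_, ?_, side_eq L⟩
  · refine dvd_trans (show 8 ∣ 2 ^ 3 from dvd_rfl) ?_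
    rw [M, ← pow_mul]
    exact pow_dvd_pow 2 (by have := le_L₀; omega)
  · refine dvd_trans (show 16 ∣ 2 ^ 4 from dvd_rfl) ?_
    rw [side, H, M, ← pow_mul, ← pow_succ']
    exact pow_dvd_pow 2 (by have := le_L₀; omega)

theorem act_apply' {v u : V} {x : S.X} : (S.act v x).1 u = x.1 (u + v) := rfl

variable (h : Counting S O)

include h in
/-- The counted strips have few patterns. -/
theorem stripCount : S.StripCount O (basePoint O) := by
  classical
  intro r ε hε
  set K := 2 * r + 5 with hK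
  set cst : ℝ := 8 * (1 + K * 16 * (16 : ℝ) ^ K) with hcst
  obtain ⟨n, hn, hnr⟩ := exists_large cst r hε
  set L := L₀ + n with hLdef
  have hL : L₀ ≤ L := Nat.le_add_right _ _
  obtain ⟨hM, hM2, h8, h16, hside⟩ := M_facts hL
  set Q := O.Q n with hQ
  have hQ0 : 0 < Q := O.Q_pos n
  set R := Q * (side L / 16) with hR
  have hRr : r < R := by
    have h1 : r < side L / 16 := by
      rw [Nat.lt_div_iff_mul_lt' h16, hside]
      nlinarith
    exact lt_of_lt_of_le h1 (Nat.le_mul_of_pos_left _ hQ0)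
  refine ⟨R, hRr, ?_⟩
  set s := side L with hs
  have hs0 : 0 < s := by rw [hside]; positivity
  set δs := Finset.Icc (-((r : ℤ) + 2)) ((r : ℤ) + 2) with hδs
  set band : ℕ → ℤ → Prop := fun a δ => (((a : ℤ) + δ) % s).toNat % H L < 8 * M L with hband
  set A' : Type := {a : Fin s // ∃ δ ∈ δs, band a δ} with hA'
  have hA'card : Nat.card A' ≤ K * (16 * M L) := by
    set B' : Type := {X : Fin s // (X : ℕ) % H L < 8 * M L} with hB'
    have hB'card : Nat.card B' ≤ 16 * M L := by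
      refine le_trans (Nat.card_le_card_of_injective (β := Fin 2 × Fin (8 * M L)) (fun X : B' =>
        (⟨(X.1 : ℕ) / H L, (Nat.div_lt_iff_lt_mul (pow_pos (M_pos L) 3)).2 X.1.2⟩,
          ⟨(X.1 : ℕ) % H L, X.2⟩)) fun X Y hXY => ?_) (le_of_eq ?_)
      · have e1 : (X.1 : ℕ) / H L = (Y.1 : ℕ) / H L :=
          congrArg (fun q : Fin 2 × Fin (8 * M L) => (q.1 : ℕ)) hXY
        have e2 : (X.1 : ℕ) % H L = (Y.1 : ℕ) % H L :=
          congrArg (fun q : Fin 2 × Fin (8 * M L) => (q.2 : ℕ)) hXY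
        refine Subtype.ext (Fin.ext ?_)
        rw [← Nat.div_add_mod (X.1 : ℕ) (H L), e1, e2, Nat.div_add_mod]
      · rw [Nat.card_eq_fintype_card, Fintype.card_prod, Fintype.card_fin, Fintype.card_fin]
        ring
    choose δ hδ hδb using fun a : A' => a.2
    refine le_trans (Nat.card_le_card_of_injective (β := ↥δs × B') (fun a =>
      (⟨δ a, hδ a⟩, ⟨⟨((((a.1 : ℕ) : ℤ) + δ a) % s).toNat, ?_⟩, hδb a⟩)) fun a b hab => ?_) ?_
    · have h1 := Int.emod_lt_of_pos (((a.1 : ℕ) : ℤ) + δ a) (show (0 : ℤ) < s by exact_mod_cast hs0)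
      have h2 := Int.emod_nonneg (((a.1 : ℕ) : ℤ) + δ a) (show (s : ℤ) ≠ 0 by exact_mod_cast hs0.ne')
      omega
    · have e1 : δ a = δ b := congrArg (fun q : ↥δs × B' => (q.1 : ℤ)) hab
      have e2 : ((((a.1 : ℕ) : ℤ) + δ a) % s).toNat = ((((b.1 : ℕ) : ℤ) + δ b) % s).toNat :=
        congrArg (fun q : ↥δs × B' => ((q.2.1 : Fin s) : ℕ)) hab
      rw [← e1] at e2
      have h1 := Int.emod_nonneg (((a.1 : ℕ) : ℤ) + δ a) (show (s : ℤ) ≠ 0 by exact_mod_cast hs0.ne')
      have h2 := Int.emod_nonneg (((b.1 : ℕ) : ℤ) + δ a) (show (s : ℤ) ≠ 0 by exact_mod_cast hs0.ne')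
      have e3 : (((a.1 : ℕ) : ℤ) + δ a) % s = (((b.1 : ℕ) : ℤ) + δ a) % s := by omega
      rw [Int.emod_add_cancel_right] at e3
      have ha := a.1.2
      have hb := b.1.2
      rw [Int.emod_eq_of_lt (Int.natCast_nonneg _) (by exact_mod_cast ha),
        Int.emod_eq_of_lt (Int.natCast_nonneg _) (by exact_mod_cast hb)] at e3
      exact Subtype.ext (Fin.ext (by exact_mod_cast e3))
    · rw [Nat.card_prod, Nat.card_eq_fintype_card (α := ↥δs), Fintype.card_coe, hδs, Int.card_Icc]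
      exact Nat.mul_le_mul (by omega) hB'card
  have hQs : O.Q (n + 1) = Q * s := h.Q_succ n
  set a₀ : S.X → ℕ := fun z => org₁ O (n + 1) z / Q with ha₀
  have ha₀lt : ∀ z, a₀ z < s := fun z => by
    rw [ha₀, Nat.div_lt_iff_lt_mul hQ0, mul_comm, ← hQs]
    exact org₁_lt _ _ _
  set bits : S.X → ↥δs → Quad := fun z δ =>
    h.bitsAt n z (((a₀ z : ℤ) + δ.1) / s, 0) (lo L ((((a₀ z : ℤ) + δ.1) % s).toNat % H L) / 2)
    with hbits
  set key : S.X → Fin Q × Option (A' × (↥δs → Quad)) := fun z =>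
    (⟨org₁ O n z, org₁_lt _ _ _⟩,
      if hz : ∃ δ ∈ δs, band (a₀ z) δ then some (⟨⟨a₀ z, ha₀lt z⟩, hz⟩, bits z) else none) with hkey
  have hcount : S.patternCount (O.fibre₂ (basePoint O)) (SFT.rect r R) ≤
      Nat.card (Fin Q × Option (A' × (↥δs → Quad))) := by
    refine card_image_le_key _ key _ fun z hz z' hz' hk => funext fun u => ?_
    obtain ⟨u, hu⟩ := u
    simp only [SFT.rect, Finset.mem_Icc, Prod.le_def] at hu
    have ho2 : ∀ w ∈ O.fibre₂ (basePoint O),
        org₂ O (n + 1) w = quarter O.Q n + Q * (H L / 4) := fun w hw => org₂_base h hw (n + 1)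
    have hk1 : org₁ O n z = org₁ O n z' :=
      congrArg (fun q : Fin Q × Option (A' × (↥δs → Quad)) => (q.1 : ℕ)) hk
    have hk2 := congrArg Prod.snd hk
    simp only [hkey] at hk2
    have hform : ∀ w : S.X, (org₁ O (n + 1) w : ℤ) + u.1 =
        ((org₁ O n w : ℤ) + u.1) + (Q : ℤ) * (a₀ w : ℤ) := fun w => by
      rw [← org₁_succ n w]
      have := Int.emod_add_mul_ediv (org₁ O (n + 1) w : ℤ) Q
      simp only [ha₀]
      push_cast
      linarith
    have hX : ∀ w d, childX O n w u d = (a₀ w : ℤ) +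
        (((org₁ O n w : ℤ) + u.1) / Q + ((d.1 : ℕ) : ℤ) - 1) := fun w d => by
      rw [childX, hform, Int.add_mul_ediv_left _ _ (show (Q : ℤ) ≠ 0 by exact_mod_cast hQ0.ne')]
      ring
    set off : Fin 3 × Fin 3 → ℤ :=
      fun d => ((org₁ O n z : ℤ) + u.1) / Q + ((d.1 : ℕ) : ℤ) - 1 with hoff
    have hoffmem : ∀ d, off d ∈ δs := fun d => by
      have hq : (0 : ℤ) < Q := by exact_mod_cast hQ0
      have h1 : -(r : ℤ) ≤ ((org₁ O n z : ℤ) + u.1) / Q := by
        rw [Int.le_ediv_iff_mul_le hq, neg_mul]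
        nlinarith [hu.1.1, Int.natCast_nonneg (org₁ O n z), Int.natCast_nonneg r]
      have h2 : ((org₁ O n z : ℤ) + u.1) / Q < (r : ℤ) + 1 := by
        rw [Int.ediv_lt_iff_lt_mul hq]
        have h3 : (org₁ O n z : ℤ) < Q := by exact_mod_cast org₁_lt O n z
        nlinarith [hu.2.1, Int.natCast_nonneg r]
      have := d.1.2
      simp only [hδs, Finset.mem_Icc, hoff]
      omega
    rw [h.cell_eq n z u, h.cell_eq n z' u, ho2 z hz, ho2 z' hz', hform z, hform z', ← hk1,
      Int.add_mul_emod_self_left, Int.add_mul_emod_self_left]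
    refine congrArg (fun f => h.dec n f _ _) (funext fun d => ?_)
    set Y := childY O n z u d with hY
    have hY' : childY O n z' u d = Y := by rw [hY, childY, childY, ho2 z hz, ho2 z' hz']
    obtain ⟨hY0, hY1, hY2, -, hY4, hY5⟩ := middle (L := L) hL (quarter_lt h n) (i := u.2) (R := R)
      (r := 0) (e := ((d.2 : ℕ) : ℤ) - 1) (by rw [abs_le]; constructor <;> omega) hR
      (Nat.zero_le _) (by have := d.2.2; rw [abs_le]; omega)
    have hYe : ((quarter O.Q n + Q * (H L / 4) : ℕ) + u.2) / (Q : ℤ) + (((d.2 : ℕ) : ℤ) - 1) = Y := by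
      rw [hY, childY, ho2 z hz, add_sub_assoc]
    rw [hYe] at hY0 hY1 hY2 hY4 hY5
    have hhi : M L / 16 ≤ hi L ((Y % s).toNat % H L) := by rw [hY1, hY2]; exact hY4
    have hhi2 : hi L ((Y % s).toNat % H L) < M L / 2 := by rw [hY1, hY2]; exact hY5
    rw [hY', hX z d, hX z' d, ← hk1]
    show h.childAt n z ((a₀ z : ℤ) + off d) Y = h.childAt n z' ((a₀ z' : ℤ) + off d) Y
    by_cases hz1 : ∃ δ ∈ δs, band (a₀ z) δ
    · rw [dif_pos hz1] at hk2
      by_cases hz2 : ∃ δ ∈ δs, band (a₀ z') δ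
      · rw [dif_pos hz2] at hk2
        simp only [Option.some.injEq, Prod.mk.injEq] at hk2
        obtain ⟨ha, hb⟩ := hk2
        have hae : a₀ z = a₀ z' := congrArg (fun q : A' => ((q.1 : Fin s) : ℕ)) ha
        have hbd := congrFun hb ⟨off d, hoffmem d⟩
        simp only [hbits] at hbd
        rw [← hae] at hbd ⊢
        simp only [Counting.childAt]
        refine child_high hL table hhi ?_
        rw [hY0]
        exact hbd
      · rw [dif_neg hz2] at hk2
        exact absurd hk2 (Option.some_ne_none _)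
    · rw [dif_neg hz1] at hk2
      have hz2 : ¬ ∃ δ ∈ δs, band (a₀ z') δ := fun hz2 => by
        rw [dif_pos hz2] at hk2
        exact Option.some_ne_none _ hk2.symm
      have hq : ∀ w, ¬ (∃ δ ∈ δs, band (a₀ w) δ) →
          h.childAt n w ((a₀ w : ℤ) + off d) Y = quiet L (Y % s).toNat := fun w hw => by
        have hnb : ¬ band (a₀ w) (off d) := fun hb => hw ⟨_, hoffmem d, hb⟩
        obtain ⟨hh, -, -, h0, -⟩ := high_facts hL hhi
        refine child_quiet _ _ (not_lt.1 hnb) h0 (fun hc => ?_) (fun hc => ?_) fun hc => ?_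
        · have h22 : hi L ((Y % (s : ℤ)).toNat % H L) = 0 := hc.2.2
          omega
        · have h22 : hi L ((Y % (s : ℤ)).toNat % H L) = M L / 2 := hc.2.2
          omega
        · have h22 : hi L ((Y % (s : ℤ)).toNat % H L) ≤ lastK L := hc.2
          omega
      rw [hq z hz1, hq z' hz2]
  have hcard : (Nat.card (Fin Q × Option (A' × (↥δs → Quad))) : ℝ) ≤
      Q * (1 + K * 16 * M L * (16 : ℝ) ^ K) := by
    have h1 : Nat.card (Fin Q × Option (A' × (↥δs → Quad))) ≤
        Q * (1 + K * (16 * M L) * 16 ^ K) := by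
      rw [Nat.card_prod, Finite.card_option, Nat.card_prod, Nat.card_fin, Nat.card_fun,
        Nat.card_eq_fintype_card (α := ↥δs), Fintype.card_coe,
        Nat.card_eq_fintype_card (α := Quad), show Fintype.card Quad = 16 from rfl,
        show δs.card = K by rw [hδs, Int.card_Icc]; omega, add_comm]
      exact Nat.mul_le_mul_left _ (Nat.add_le_add_left (Nat.mul_le_mul_right _ hA'card) 1)
    have h2 : ((Nat.card (Fin Q × Option (A' × (↥δs → Quad))) : ℕ) : ℝ) ≤
        ((Q * (1 + K * (16 * M L) * 16 ^ K) : ℕ) : ℝ) := by exact_mod_cast h1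
    refine h2.trans (le_of_eq ?_)
    push_cast
    ring
  refine le_trans (le_trans (by exact_mod_cast hcount) hcard) ?_
  have hMr : (65536 : ℝ) ≤ M L := by exact_mod_cast hM
  have hRe : (R : ℝ) = Q * ((M L : ℝ) ^ 3 / 8) := by
    rw [hR, Nat.cast_mul, hs, Nat.cast_div h16 (by norm_num), hside]
    push_cast
    ring
  have hLr : (1 : ℝ) ≤ (L : ℝ) := by
    have : 1 ≤ L := le_trans (by have := le_L₀; omega) hL
    exact_mod_cast this
  have hc0 : 0 < cst := by positivity
  rw [hRe]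
  calc (Q : ℝ) * (1 + K * 16 * M L * (16 : ℝ) ^ K) ≤ Q * (cst / 8 * M L) := by
        refine mul_le_mul_of_nonneg_left ?_ (Nat.cast_nonneg _)
        rw [hcst]
        nlinarith
    _ ≤ Q * (cst / 8 * L * M L) := by
        refine mul_le_mul_of_nonneg_left (mul_le_mul_of_nonneg_right ?_ (by linarith))
          (Nat.cast_nonneg _)
        nlinarith
    _ ≤ Q * (ε * M L / 8 * M L) := by
        refine mul_le_mul_of_nonneg_left (mul_le_mul_of_nonneg_right ?_ (by linarith))
          (Nat.cast_nonneg _)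
        linarith
    _ ≤ ε * (Q * ((M L : ℝ) ^ 3 / 8)) := by
        rw [show ε * ((Q : ℝ) * ((M L : ℝ) ^ 3 / 8)) = Q * (ε * M L / 8 * M L) * M L by ring]
        exact le_mul_of_one_le_right (by positivity) (by linarith)

end Vale.Agent.P196.Tile
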